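import Mathlib

/-!
# Matrix units in group algebras

If `S` is a Dedekind-finite ring, `ι : R → S` a ring hom whose image commutes with a
system of matrix units `E a b` of `S`, and the construction is faithful, then `M_n(R)` is
Dedekind-finite.
-/

namespace Vale.Agent.P194

open scoped BigOperators

universe u v w

section Abstract

variable {R : Type u} {S : Type v} [Ring R] [Ring S] {n : ℕ}

/-- The additive map `M_n(R) → S` attached to matrix units. -/
noncomputable def muMap (ι : R →+* S) (E : Fin n → Fin n → S)
    (x : Matrix (Fin n) (Fin n) R) : S :=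
  ∑ a, ∑ b, ι (x a b) * E a b

lemma muMap_mul (ι : R →+* S) (E : Fin n → Fin n → S)
    (hcomm : ∀ r a b, Commute (ι r) (E a b))
    (hE : ∀ a b c d, E a b * E c d = if b = c then E a d else 0)
    (x y : Matrix (Fin n) (Fin n) R) :
    muMap ι E x * muMap ι E y = muMap ι E (x * y) := by
  classical
  unfold muMap
  simp only [Finset.sum_mul, Finset.mul_sum, Matrix.mul_apply, map_sum]
  have key : ∀ a b c d, ι (x a b) * E a b * (ι (y c d) * E c d)
      = if b = c then ι (x a b * y b d) * E a d else 0 := by
    intro a b c d
    have : ι (x a b) * E a b * (ι (y c d) * E c d)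
        = ι (x a b) * ι (y c d) * (E a b * E c d) := by
      rw [mul_assoc, mul_assoc, ← mul_assoc (E a b), ((hcomm (y c d) a b).eq).symm]
      simp only [mul_assoc]
    rw [this, hE]
    split_ifs with h
    · subst h; simp [map_mul]
    · simp
  simp only [key]
  simp only [Finset.sum_ite_eq', Finset.mem_univ, if_true]
  calc _ = ∑ d, ∑ c, ∑ a, ι (x a c * y c d) * E a d := Finset.sum_comm
    _ = ∑ d, ∑ a, ∑ c, ι (x a c * y c d) * E a d :=
        Finset.sum_congr rfl fun d _ => Finset.sum_comm
    _ = _ := Finset.sum_comm

lemma muMap_inj (ι : R →+* S) (E : Fin n → Fin n → S)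
    (hcomm : ∀ r a b, Commute (ι r) (E a b))
    (hE : ∀ a b c d, E a b * E c d = if b = c then E a d else 0)
    (hinj : ∀ r a b, ι r * E a b = 0 → r = 0)
    {x y : Matrix (Fin n) (Fin n) R} (h : muMap ι E x = muMap ι E y) : x = y := by
  classical
  -- sandwich between E a a and E b b
  have key : ∀ (z : Matrix (Fin n) (Fin n) R) a b,
      E a a * muMap ι E z * E b b = ι (z a b) * E a b := by
    intro z a b
    unfold muMap
    simp only [Finset.mul_sum, Finset.sum_mul]
    have h1 : ∀ c d, E a a * (ι (z c d) * E c d) * E b b
        = if a = c ∧ d = b then ι (z a b) * E a b else 0 := by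
      intro c d
      have : E a a * (ι (z c d) * E c d) * E b b = ι (z c d) * (E a a * E c d * E b b) := by
        rw [← mul_assoc, ((hcomm (z c d) a a).eq).symm]
        simp only [mul_assoc]
      rw [this, hE]
      by_cases hac : a = c
      · subst hac
        simp only [if_true, hE]
        by_cases hdb : d = b
        · subst hdb; simp
        · simp [hdb]
      · simp [hac]
    simp only [h1]
    rw [Finset.sum_eq_single a]
    · rw [Finset.sum_eq_single b]
      · simp
      · intro d _ hd; simp [hd]
      · simp
    · intro c _ hc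
      refine Finset.sum_eq_zero fun d _ => ?_
      simp [Ne.symm hc]
    · simp
  ext1 a b
  have h2 : ι (x a b - y a b) * E a b = 0 := by
    rw [map_sub, sub_mul, ← key x a b, ← key y a b, h, sub_self]
  exact sub_eq_zero.mp (hinj _ a b h2)

/-- Matrix units transfer Dedekind-finiteness. -/
theorem dedekind_of_matrixUnits [IsDedekindFiniteMonoid S] (ι : R →+* S)
    (E : Fin n → Fin n → S)
    (hcomm : ∀ r a b, Commute (ι r) (E a b))
    (hE : ∀ a b c d, E a b * E c d = if b = c then E a d else 0)
    (hinj : ∀ r a b, ι r * E a b = 0 → r = 0) :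
    IsDedekindFiniteMonoid (Matrix (Fin n) (Fin n) R) := by
  classical
  refine ⟨fun {x y} hxy => ?_⟩
  set f : S := muMap ι E 1 with hf
  have hfx : ∀ z, f * muMap ι E z = muMap ι E z := by
    intro z
    rw [hf, muMap_mul ι E hcomm hE, one_mul]
  have hxf : ∀ z, muMap ι E z * f = muMap ι E z := by
    intro z
    rw [hf, muMap_mul ι E hcomm hE, mul_one]
  have hff : f * f = f := hfx 1
  set X : S := muMap ι E x + (1 - f) with hX
  set Y : S := muMap ι E y + (1 - f) with hY
  have hXY : X * Y = 1 := by
    rw [hX, hY, add_mul, mul_add, mul_add, muMap_mul ι E hcomm hE, hxy, mul_sub, mul_one, hxf,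
      sub_mul, one_mul, hfx, ← hf, mul_sub, mul_one, sub_mul, one_mul, hff]
    abel
  have hYX : Y * X = 1 := mul_eq_one_symm hXY
  have h3 : muMap ι E (y * x) = muMap ι E 1 := by
    have : Y * X = muMap ι E (y * x) + (1 - f) := by
      rw [hX, hY, add_mul, mul_add, mul_add, muMap_mul ι E hcomm hE, mul_sub, mul_one, hxf,
        sub_mul, one_mul, hfx, mul_sub, mul_one, sub_mul, one_mul, hff]
      abel
    rw [hYX] at this
    have h4 : muMap ι E (y * x) = f := by
      have := congrArg (fun t => t - (1 - f)) this
      simp only [add_sub_cancel_right] at this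
      rw [← this]; abel
    rw [h4]
  exact muMap_inj ι E hcomm hE hinj h3

end Abstract

end Vale.Agent.P194
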