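import Vale.Agent.P194.Wreath

/-!
# Reduction of Kaplansky's direct finiteness conjecture to prime fields and finitely
presented groups
-/

namespace Vale.Agent.P194

open scoped BigOperators
open MonoidAlgebra

universe u v w

/-! ### From the prime field to finite fields -/

section FiniteField

/-- The scalar matrix with entry the group element `g`. -/
noncomputable def scalarHom (k : Type u) [Field k] (G : Type v) [Group G] (d : ℕ) :
    G →* Matrix (Fin d) (Fin d) (MonoidAlgebra k G) :=
  ((Matrix.scalar (Fin d)).toMonoidHom).comp (of k G)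

/-- The coefficient embedding `F → M_d(k) → M_d(k[G])`. -/
noncomputable def coeffHom (k : Type u) [Field k] {F : Type w} [Field F] [Algebra k F]
    (G : Type v) [Group G] {d : ℕ} (b : Module.Basis (Fin d) k F) :
    F →+* Matrix (Fin d) (Fin d) (MonoidAlgebra k G) :=
  ((singleOneRingHom (R := k) (M := G)).mapMatrix).comp
    (Algebra.leftMulMatrix b : F →+* Matrix (Fin d) (Fin d) k)

lemma coeffHom_apply (k : Type u) [Field k] {F : Type w} [Field F] [Algebra k F]
    (G : Type v) [Group G] {d : ℕ} (b : Module.Basis (Fin d) k F) (x : F) (i j : Fin d) :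
    coeffHom k G b x i j = single 1 (Algebra.leftMulMatrix b x i j) := rfl

lemma coeffHom_comm (k : Type u) [Field k] {F : Type w} [Field F] [Algebra k F]
    (G : Type v) [Group G] {d : ℕ} (b : Module.Basis (Fin d) k F) (x : F) (g : G) :
    Commute (coeffHom k G b x) (scalarHom k G d g) := by
  classical
  apply Commute.symm
  show Commute (Matrix.scalar (Fin d) (of k G g)) _
  rw [Matrix.scalar_commute_iff]
  ext1 i j
  show (of k G g) * (coeffHom k G b x i j) = (coeffHom k G b x i j) * of k G g
  rw [coeffHom_apply, of_apply, single_mul_single, single_mul_single]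
  simp [mul_comm]

/-- The embedding `F[G] → M_d(k[G])`. -/
noncomputable def regRep (k : Type u) [Field k] {F : Type w} [Field F] [Algebra k F]
    (G : Type v) [Group G] {d : ℕ} (b : Module.Basis (Fin d) k F) :
    MonoidAlgebra F G →+* Matrix (Fin d) (Fin d) (MonoidAlgebra k G) :=
  liftNCRingHom (coeffHom k G b) (scalarHom k G d) (coeffHom_comm k G b)

lemma coeff_regRep (k : Type u) [Field k] {F : Type w} [Field F] [Algebra k F]
    (G : Type v) [Group G] {d : ℕ} (b : Module.Basis (Fin d) k F) (x : MonoidAlgebra F G)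
    (i j : Fin d) (g : G) :
    (regRep k G b x i j).coeff g = Algebra.leftMulMatrix b (x.coeff g) i j := by
  classical
  induction x using MonoidAlgebra.induction_linear with
  | zero => simp
  | add x y hx hy =>
    simp only [map_add, Matrix.add_apply, coeff_add, Finsupp.add_apply, hx, hy]
  | single g0 c =>
    unfold regRep
    rw [liftNCRingHom_single]
    have h1 : (coeffHom k G b c * scalarHom k G d g0) i j
        = single g0 (Algebra.leftMulMatrix b c i j) := by
      have : scalarHom k G d g0 = Matrix.scalar (Fin d) (of k G g0) := rfl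
      rw [this, Matrix.scalar_apply, Matrix.mul_diagonal, coeffHom_apply, of_apply,
        single_mul_single]
      simp
    rw [h1, coeff_single, coeff_single]
    by_cases hg : g0 = g
    · subst hg; simp
    · simp [hg]

lemma regRep_injective (k : Type u) [Field k] {F : Type w} [Field F] [Algebra k F]
    (G : Type v) [Group G] {d : ℕ} (b : Module.Basis (Fin d) k F) :
    Function.Injective (regRep k G b) := by
  classical
  intro x y h
  apply coeff_injective
  ext g
  apply Algebra.leftMulMatrix_injective b
  ext i j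
  rw [← coeff_regRep, ← coeff_regRep, h]

/-- Stable finiteness passes from `k[G]` to `F[G]` for a finite extension `F/k`. -/
theorem stablyFinite_of_finite_ext (k : Type u) [Field k] (F : Type w) [Field F] [Algebra k F]
    [Module.Finite k F] (G : Type v) [Group G] [IsStablyFiniteRing (MonoidAlgebra k G)] :
    IsStablyFiniteRing (MonoidAlgebra F G) := by
  classical
  exact IsStablyFiniteRing.of_injective (regRep k G (Module.finBasis k F))
    (regRep_injective k G _)

end FiniteField

/-! ### From finite fields to arbitrary fields -/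

section General

variable {K : Type u} [Field K] {G : Type v} [Group G]

/-- An element of `K[G]` whose coefficients lie in a subalgebra lifts to that subalgebra. -/
lemma exists_lift {k : Type*} [Field k] [Algebra k K] (R : Subalgebra k K)
    (a : MonoidAlgebra K G)
    (ha : ∀ g, a.coeff g ∈ R) :
    ∃ a' : MonoidAlgebra R G, mapRingHom G (R.val : R →+* K) a' = a := by
  classical
  refine ⟨ofCoeff (a.coeff.mapRange (fun c => if h : c ∈ R then (⟨c, h⟩ : R) else 0)
    (by rw [dif_pos R.zero_mem]; rfl)), ?_⟩
  apply coeff_injective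
  ext g
  rw [coeff_mapRingHom]
  simp [ha g]

/-- Reduction from arbitrary fields of characteristic `p` to finite fields. -/
theorem stablyFinite_of_finite_fields (p : ℕ) [Fact p.Prime]
    (hF : ∀ (F : Type u) [Field F] [Finite F] [CharP F p],
      IsStablyFiniteRing (MonoidAlgebra F G))
    [CharP K p] : IsStablyFiniteRing (MonoidAlgebra K G) := by
  classical
  refine ⟨fun n => ⟨fun {x y} hxy => ?_⟩⟩
  by_contra hyx
  -- a nonzero coefficient of `y * x - 1`
  obtain ⟨i, j, g, hc⟩ : ∃ i j g, ((y * x - 1) i j).coeff g ≠ 0 := by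
    by_contra hall
    push_neg at hall
    apply hyx
    have : y * x - 1 = 0 := by
      ext i j g
      rw [hall i j g]
      rfl
    exact sub_eq_zero.mp this
  set c := ((y * x - 1) i j).coeff g with hcdef
  letI : Algebra (ZMod p) K := ZMod.algebra K p
  -- the finitely generated coefficient algebra
  let S : Finset K := (Finset.univ.biUnion fun i => Finset.univ.biUnion fun j =>
      ((x i j).coeff.frange ∪ (y i j).coeff.frange)) ∪ {c⁻¹}
  let R : Subalgebra (ZMod p) K := Algebra.adjoin (ZMod p) (S : Set K)
  have hSR : ∀ a ∈ S, a ∈ R := fun a ha => Algebra.subset_adjoin ha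
  have hxR : ∀ i j g, (x i j).coeff g ∈ R := by
    intro i j g
    by_cases h0 : (x i j).coeff g = 0
    · rw [h0]; exact R.zero_mem
    · apply hSR
      simp only [S, Finset.mem_union, Finset.mem_biUnion, Finset.mem_univ, true_and]
      left
      exact ⟨i, j, Or.inl (Finsupp.mem_frange.mpr ⟨h0, g, rfl⟩)⟩
  have hyR : ∀ i j g, (y i j).coeff g ∈ R := by
    intro i j g
    by_cases h0 : (y i j).coeff g = 0
    · rw [h0]; exact R.zero_mem
    · apply hSR
      simp only [S, Finset.mem_union, Finset.mem_biUnion, Finset.mem_univ, true_and]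
      left
      exact ⟨i, j, Or.inr (Finsupp.mem_frange.mpr ⟨h0, g, rfl⟩)⟩
  have hcinv : c⁻¹ ∈ R := hSR _ (by simp [S])
  -- lifts
  let ι : R →+* K := (R.val : R →+* K)
  have hι : Function.Injective ι := Subtype.val_injective
  let mapI : Matrix (Fin n) (Fin n) (MonoidAlgebra R G) →+* Matrix (Fin n) (Fin n) (MonoidAlgebra K G) :=
    (mapRingHom G ι).mapMatrix
  have hmapI : Function.Injective mapI := by
    intro u v huv
    ext a b h
    have h1 := congrArg (fun M => (M a b).coeff h) huv
    simp only [mapI, RingHom.mapMatrix_apply, Matrix.map_apply, coeff_mapRingHom] at h1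
    exact congrArg Subtype.val (hι h1) |> Subtype.ext |> congrArg Subtype.val
  choose x' hx' using fun i j => exists_lift R (x i j) (hxR i j)
  choose y' hy' using fun i j => exists_lift R (y i j) (hyR i j)
  let X : Matrix (Fin n) (Fin n) (MonoidAlgebra R G) := Matrix.of x'
  let Y : Matrix (Fin n) (Fin n) (MonoidAlgebra R G) := Matrix.of y'
  have hX : mapI X = x := by
    ext1 a b
    exact hx' a b
  have hY : mapI Y = y := by
    ext1 a b
    exact hy' a b
  have hXY : X * Y = 1 := by
    apply hmapI
    rw [map_mul, hX, hY, hxy, map_one]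
  -- a maximal ideal and the finite residue field
  obtain ⟨𝔪, h𝔪⟩ := Ideal.exists_maximal R
  letI : Field (R ⧸ 𝔪) := Ideal.Quotient.field 𝔪
  haveI : Module.Finite (ZMod p) (R ⧸ 𝔪) := by
    haveI : Algebra.FiniteType (ZMod p) R := by
      refine (Subalgebra.fg_iff_finiteType R).mp ?_
      exact Subalgebra.fg_adjoin_finset S
    exact finite_of_finite_type_of_isJacobsonRing (ZMod p) (R ⧸ 𝔪)
  haveI : Finite (R ⧸ 𝔪) := Module.finite_of_finite (ZMod p)
  haveI : CharP (R ⧸ 𝔪) p := charP_of_injective_algebraMap (algebraMap (ZMod p) (R ⧸ 𝔪)).injective p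
  let π : R →+* (R ⧸ 𝔪) := Ideal.Quotient.mk 𝔪
  let mapP : Matrix (Fin n) (Fin n) (MonoidAlgebra R G) →+*
      Matrix (Fin n) (Fin n) (MonoidAlgebra (R ⧸ 𝔪) G) := (mapRingHom G π).mapMatrix
  haveI : IsStablyFiniteRing (MonoidAlgebra (R ⧸ 𝔪) G) := hF (R ⧸ 𝔪)
  have h1 : mapP Y * mapP X = 1 := by
    apply mul_eq_one_symm (a := mapP X)
    rw [← map_mul, hXY, map_one]
  have h2 : mapP (Y * X - 1) = 0 := by
    rw [map_sub, map_mul, h1, map_one, sub_self]
  have h3 : (((Y * X - 1) i j).coeff g : K) = c := by
    have : mapI (Y * X - 1) = y * x - 1 := by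
      rw [map_sub, map_mul, hX, hY, map_one]
    rw [hcdef, ← this]
    simp only [mapI, RingHom.mapMatrix_apply, Matrix.map_apply, coeff_mapRingHom]
    rfl
  have h4 : π (((Y * X - 1) i j).coeff g) = 0 := by
    have h5 := congrArg (fun M => (M i j).coeff g) h2
    simp only [mapP, RingHom.mapMatrix_apply, Matrix.map_apply, coeff_mapRingHom] at h5
    exact h5
  have h6 : ((Y * X - 1) i j).coeff g * (⟨c⁻¹, hcinv⟩ : R) = 1 := by
    apply Subtype.ext
    show (((Y * X - 1) i j).coeff g : K) * c⁻¹ = 1
    rw [h3]
    exact mul_inv_cancel₀ hc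
  have h7 := congrArg π h6
  rw [map_mul, h4, zero_mul, map_one] at h7
  exact zero_ne_one h7

end General

/-! ### From all groups to finitely presented groups -/

section Presented

variable {k : Type u} [Field k]

/-- Reduction to finitely presented groups: a failure of Dedekind-finiteness in `k[G]`
lifts to a finitely presented group. -/
theorem dedekind_of_presented
    (h : ∀ (Γ : Type) [Group Γ] [Group.IsFinitelyPresented Γ],
      IsDedekindFiniteMonoid (MonoidAlgebra k Γ))
    (G : Type v) [Group G] : IsDedekindFiniteMonoid (MonoidAlgebra k G) := by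
  classical
  refine ⟨fun {a b} hab => ?_⟩
  -- finite generating data
  set T : Finset G := a.coeff.support ∪ b.coeff.support with hT
  let e := T.equivFin
  let m := T.card
  let τ : Fin m → G := fun i => (e.symm i : G)
  have hτinj : Function.Injective τ := fun i j hij => e.symm.injective (Subtype.ext hij)
  have hτrange : ∀ g ∈ T, ∃ i, τ i = g := fun g hg => ⟨e ⟨g, hg⟩, by simp [τ]⟩
  let πF : FreeGroup (Fin m) →* G := FreeGroup.lift τ
  -- the relators
  let of' : Fin m → FreeGroup (Fin m) := FreeGroup.of
  let R1 : Set (FreeGroup (Fin m)) := {w | πF w = 1 ∧ ∃ i j i' j' : Fin m,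
    w = of' i * of' j * (of' i' * of' j')⁻¹}
  let R2 : Set (FreeGroup (Fin m)) := {w | πF w = 1 ∧ ∃ i j : Fin m, w = of' i * of' j}
  let Rels : Set (FreeGroup (Fin m)) := R1 ∪ R2
  have hR1fin : R1.Finite := by
    have : R1 ⊆ Set.range (fun q : Fin m × Fin m × Fin m × Fin m =>
        of' q.1 * of' q.2.1 * (of' q.2.2.1 * of' q.2.2.2)⁻¹) := by
      rintro w ⟨-, i, j, i', j', rfl⟩
      exact ⟨(i, j, i', j'), rfl⟩
    exact (Set.finite_range _).subset this
  have hR2fin : R2.Finite := by
    have : R2 ⊆ Set.range (fun q : Fin m × Fin m => of' q.1 * of' q.2) := by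
      rintro w ⟨-, i, j, rfl⟩
      exact ⟨(i, j), rfl⟩
    exact (Set.finite_range _).subset this
  have hRelsfin : Rels.Finite := hR1fin.union hR2fin
  haveI : Finite Rels := hRelsfin
  let Γ := PresentedGroup Rels
  haveI : Group.IsFinitelyPresented Γ := inferInstance
  have hrel : ∀ r ∈ Rels, FreeGroup.lift τ r = 1 := by
    rintro r (hr | hr)
    · exact hr.1
    · exact hr.1
  let π : Γ →* G := PresentedGroup.toGroup hrel
  let s : Fin m → Γ := fun i => PresentedGroup.of i
  have hπs : ∀ i, π (s i) = τ i := fun i => PresentedGroup.toGroup.of hrel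
  have hs1 : ∀ i j i' j', τ i * τ j = τ i' * τ j' → s i * s j = s i' * s j' := by
    intro i j i' j' hq
    have hmem : of' i * of' j * (of' i' * of' j')⁻¹ ∈ Rels := by
      left
      refine ⟨?_, i, j, i', j', rfl⟩
      simp [of', πF, hq]
    have := PresentedGroup.one_of_mem hmem
    rw [map_mul, map_inv, map_mul, map_mul] at this
    exact mul_inv_eq_one.mp this
  have hs2 : ∀ i j, τ i * τ j = 1 → s i * s j = 1 := by
    intro i j hq
    have hmem : of' i * of' j ∈ Rels := by
      right
      refine ⟨?_, i, j, rfl⟩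
      simp [of', πF, hq]
    have := PresentedGroup.one_of_mem hmem
    rw [map_mul] at this
    exact this
  -- the section on products
  let θ : G → Γ := fun g =>
    if hg : ∃ q : Fin m × Fin m, τ q.1 * τ q.2 = g ∧ g ≠ 1 then s hg.choose.1 * s hg.choose.2 else 1
  have hθ : ∀ i j, θ (τ i * τ j) = s i * s j := by
    intro i j
    by_cases h1 : τ i * τ j = 1
    · have h2 : ¬ ∃ q : Fin m × Fin m, τ q.1 * τ q.2 = τ i * τ j ∧ τ i * τ j ≠ 1 := by
        rintro ⟨q, -, h3⟩
        exact h3 h1
      simp only [θ, dif_neg h2]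
      exact (hs2 i j h1).symm
    · have h2 : ∃ q : Fin m × Fin m, τ q.1 * τ q.2 = τ i * τ j ∧ τ i * τ j ≠ 1 := ⟨(i, j), rfl, h1⟩
      simp only [θ, dif_pos h2]
      exact hs1 _ _ _ _ h2.choose_spec.1
  have hθ1 : θ 1 = 1 := by
    have h2 : ¬ ∃ q : Fin m × Fin m, τ q.1 * τ q.2 = (1 : G) ∧ (1 : G) ≠ 1 := by
      rintro ⟨q, -, h3⟩
      exact h3 rfl
    simp only [θ, dif_neg h2]
  -- expansions
  have hexp : ∀ c : MonoidAlgebra k G, (∀ g, c.coeff g ≠ 0 → g ∈ T) →
      c = ∑ i, single (τ i) (c.coeff (τ i)) := by
    intro c hc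
    apply coeff_injective
    ext g
    rw [coeff_sum, Finset.sum_apply']
    by_cases hg : ∃ i, τ i = g
    · obtain ⟨i, rfl⟩ := hg
      rw [Finset.sum_eq_single i]
      · simp
      · intro j _ hj
        simp [hτinj.ne hj]
      · simp
    · have h0 : c.coeff g = 0 := by
        by_contra h0
        obtain ⟨i, hi⟩ := hτrange g (hc g h0)
        exact hg ⟨i, hi⟩
      rw [h0]
      symm
      apply Finset.sum_eq_zero
      intro j _
      have : τ j ≠ g := fun h => hg ⟨j, h⟩
      simp [this]
  have hexpa : a = ∑ i, single (τ i) (a.coeff (τ i)) := hexp a (fun g hg => by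
    rw [hT]; exact Finset.mem_union_left _ (Finsupp.mem_support_iff.mpr hg))
  have hexpb : b = ∑ i, single (τ i) (b.coeff (τ i)) := hexp b (fun g hg => by
    rw [hT]; exact Finset.mem_union_right _ (Finsupp.mem_support_iff.mpr hg))
  -- the lifts
  let A : MonoidAlgebra k Γ := ∑ i, single (s i) (a.coeff (τ i))
  let B : MonoidAlgebra k Γ := ∑ i, single (s i) (b.coeff (τ i))
  let Θ : MonoidAlgebra k G →+ MonoidAlgebra k Γ :=
    { toFun := mapDomain θ
      map_zero' := mapDomain_zero _
      map_add' := mapDomain_add _ }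
  have hAB : A * B = 1 := by
    have h1 : Θ (a * b) = A * B := by
      have hab' : a * b = ∑ i, ∑ j, single (τ i * τ j) (a.coeff (τ i) * b.coeff (τ j)) := by
        conv_lhs => rw [hexpa, hexpb]
        simp only [Finset.sum_mul_sum, single_mul_single]
      have hAB' : A * B = ∑ i, ∑ j, single (s i * s j) (a.coeff (τ i) * b.coeff (τ j)) := by
        show (∑ i, single (s i) (a.coeff (τ i))) * (∑ j, single (s j) (b.coeff (τ j))) = _
        rw [Finset.sum_mul_sum]
        refine Finset.sum_congr rfl fun i _ => Finset.sum_congr rfl fun j _ => ?_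
        exact single_mul_single ..
      rw [hab', hAB', map_sum]
      refine Finset.sum_congr rfl fun i _ => ?_
      rw [map_sum]
      refine Finset.sum_congr rfl fun j _ => ?_
      show mapDomain θ _ = _
      rw [mapDomain_single, hθ]
    rw [← h1, hab]
    show mapDomain θ 1 = 1
    rw [one_def, mapDomain_single, hθ1, one_def]
  haveI := h Γ
  have hBA : B * A = 1 := mul_eq_one_symm hAB
  have hmapA : mapDomainRingHom k π A = a := by
    conv_rhs => rw [hexpa]
    simp only [A, map_sum, mapDomainRingHom_apply, mapDomain_single, hπs]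
  have hmapB : mapDomainRingHom k π B = b := by
    conv_rhs => rw [hexpb]
    simp only [B, map_sum, mapDomainRingHom_apply, mapDomain_single, hπs]
  have := congrArg (mapDomainRingHom k π) hBA
  rw [map_mul, hmapA, hmapB, map_one] at this
  exact this

end Presented

/-- **Reduction of Kaplansky's direct finiteness conjecture.**  If `𝔽_p[Γ]` is Dedekind-finite
for every finitely presented group `Γ`, then `K[G]` is stably finite for every field `K` of
characteristic `p` and every group `G`. -/
theorem main (p : ℕ) [Fact p.Prime]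
    (h : ∀ (Γ : Type) [Group Γ] [Group.IsFinitelyPresented Γ],
      IsDedekindFiniteMonoid (MonoidAlgebra (ZMod p) Γ))
    (K : Type u) [Field K] [CharP K p] (G : Type v) [Group G] :
    IsStablyFiniteRing (MonoidAlgebra K G) := by
  have h1 : ∀ (Γ : Type v) [Group Γ], IsDedekindFiniteMonoid (MonoidAlgebra (ZMod p) Γ) :=
    fun Γ _ => dedekind_of_presented h Γ
  have h2 : IsStablyFiniteRing (MonoidAlgebra (ZMod p) G) :=
    stablyFinite_of_dedekind_all h1 G
  refine stablyFinite_of_finite_fields p (fun F _ _ _ => ?_)
  letI : Algebra (ZMod p) F := ZMod.algebra F p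
  haveI : Module.Finite (ZMod p) F := Module.Finite.of_finite
  exact stablyFinite_of_finite_ext (ZMod p) F G

end Vale.Agent.P194
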