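import Vale.Agent.P194.MatrixUnits

/-!
# Idempotents and matrix units in the group algebra of a wreath product
-/

namespace Vale.Agent.P194

open scoped BigOperators
open MonoidAlgebra

universe u v

section Wreath

variable (ℓ n : ℕ)

/-- The base group `(ZMod ℓ)^n`, written multiplicatively. -/
abbrev VA := Multiplicative (Fin n → ZMod ℓ)

/-- The permutation action of `S_n` on the base group. -/
def phi : Equiv.Perm (Fin n) →* MulAut (VA ℓ n) where
  toFun π :=
    { toFun := fun a => Multiplicative.ofAdd ((Multiplicative.toAdd a) ∘ π.symm)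
      invFun := fun a => Multiplicative.ofAdd ((Multiplicative.toAdd a) ∘ π)
      left_inv := fun a => by
        apply Multiplicative.toAdd.injective
        funext i
        simp
      right_inv := fun a => by
        apply Multiplicative.toAdd.injective
        funext i
        simp
      map_mul' := fun a b => rfl }
  map_one' := by
    ext a i
    rfl
  map_mul' π σ := by
    ext a i
    rfl

/-- The wreath product `ZMod ℓ ≀ S_n`. -/
abbrev Wr := SemidirectProduct (VA ℓ n) (Equiv.Perm (Fin n)) (phi ℓ n)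

variable {k : Type u} [Field k]

variable (k) in
/-- Averaging idempotent of `ZMod ℓ`. -/
noncomputable def avg [NeZero ℓ] : MonoidAlgebra k (Multiplicative (ZMod ℓ)) :=
  ∑ m : ZMod ℓ, single (Multiplicative.ofAdd m) ((ℓ : k)⁻¹)

lemma avg_mul_avg [NeZero ℓ] (hℓ : (ℓ : k) ≠ 0) : avg (k := k) ℓ * avg (k := k) ℓ = avg (k := k) ℓ := by
  classical
  unfold avg
  rw [Finset.sum_mul_sum]
  simp only [single_mul_single, ← ofAdd_add]
  have h1 : ∀ a : ZMod ℓ,
      ∑ b : ZMod ℓ, (single (Multiplicative.ofAdd (a + b)) ((ℓ : k)⁻¹ * (ℓ : k)⁻¹)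
        : MonoidAlgebra k (Multiplicative (ZMod ℓ)))
      = ∑ b : ZMod ℓ, single (Multiplicative.ofAdd b) ((ℓ : k)⁻¹ * (ℓ : k)⁻¹) := by
    intro a
    exact Fintype.sum_equiv (Equiv.addLeft a) _ _ (fun b => rfl)
  simp only [h1, Finset.sum_const, Finset.card_univ, ZMod.card]
  rw [Finset.smul_sum]
  refine Finset.sum_congr rfl fun m _ => ?_
  rw [nsmul_eq_mul, natCast_def, single_mul_single, one_mul]
  congr 1
  field_simp

/-- The inclusion of the `i`-th coordinate. -/
def coordIncl (i : Fin n) : Multiplicative (ZMod ℓ) →* VA ℓ n :=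
  AddMonoidHom.toMultiplicative (AddMonoidHom.single (fun _ : Fin n => ZMod ℓ) i)

/-- The projection to the `i`-th coordinate. -/
def coordProj (i : Fin n) : VA ℓ n →* Multiplicative (ZMod ℓ) :=
  AddMonoidHom.toMultiplicative (Pi.evalAddMonoidHom (fun _ : Fin n => ZMod ℓ) i)

variable (k) in
/-- The averaging idempotent in the `i`-th coordinate. -/
noncomputable def eps [NeZero ℓ] (i : Fin n) : MonoidAlgebra k (VA ℓ n) :=
  mapDomainRingHom k (coordIncl ℓ n i) (avg (k := k) ℓ)

lemma eps_mul_self [NeZero ℓ] (hℓ : (ℓ : k) ≠ 0) (i : Fin n) :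
    eps ℓ n k i * eps ℓ n k i = eps ℓ n k i := by
  unfold eps
  rw [← map_mul, avg_mul_avg ℓ hℓ]

lemma phi_coordIncl (π : Equiv.Perm (Fin n)) (i : Fin n) (a : Multiplicative (ZMod ℓ)) :
    phi ℓ n π (coordIncl ℓ n i a) = coordIncl ℓ n (π i) a := by
  classical
  apply Multiplicative.toAdd.injective
  funext j
  show (Pi.single i (Multiplicative.toAdd a) : Fin n → ZMod ℓ) (π.symm j)
    = (Pi.single (π i) (Multiplicative.toAdd a) : Fin n → ZMod ℓ) j
  by_cases h : j = π i
  · subst h; simp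
  · have : π.symm j ≠ i := fun h' => h (by rw [← h']; simp)
    simp [this, h]

/-- The action of a permutation on the group algebra of the base group. -/
noncomputable def phiAlg (π : Equiv.Perm (Fin n)) :
    MonoidAlgebra k (VA ℓ n) →+* MonoidAlgebra k (VA ℓ n) :=
  mapDomainRingHom k (phi ℓ n π).toMonoidHom

lemma phiAlg_eps [NeZero ℓ] (π : Equiv.Perm (Fin n)) (i : Fin n) :
    phiAlg ℓ n π (eps ℓ n k i) = eps ℓ n k (π i) := by
  unfold phiAlg eps avg
  simp only [map_sum, mapDomainRingHom_apply, mapDomain_single]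
  refine Finset.sum_congr rfl fun m _ => ?_
  congr 1
  exact phi_coordIncl ℓ n π i _

variable [NeZero ℓ]

variable (k) in
/-- The primitive-like idempotent `(1 - ε₀) ∏_{i ≠ 0} ε_i`. -/
noncomputable def e0 (m : ℕ) : MonoidAlgebra k (VA ℓ (m + 1)) :=
  (1 - eps ℓ (m + 1) k 0) * ∏ i ∈ Finset.univ.erase (0 : Fin (m + 1)), eps ℓ (m + 1) k i

lemma e0_idem (hℓ : (ℓ : k) ≠ 0) (m : ℕ) : e0 ℓ k m * e0 ℓ k m = e0 ℓ k m := by
  unfold e0
  set a := eps ℓ (m + 1) k 0
  set P := ∏ i ∈ Finset.univ.erase (0 : Fin (m + 1)), eps ℓ (m + 1) k i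
  have h1 : a * a = a := eps_mul_self ℓ (m + 1) hℓ 0
  have h2 : P * P = P := by
    rw [← Finset.prod_mul_distrib]
    exact Finset.prod_congr rfl fun i _ => eps_mul_self ℓ (m + 1) hℓ i
  calc (1 - a) * P * ((1 - a) * P) = (1 - a - a + a * a) * (P * P) := by ring
    _ = (1 - a) * P := by rw [h1, h2]; ring

lemma e0_orth (hℓ : (ℓ : k) ≠ 0) (m : ℕ) (π : Equiv.Perm (Fin (m + 1))) (hπ : π 0 ≠ 0) :
    e0 ℓ k m * phiAlg ℓ (m + 1) π (e0 ℓ k m) = 0 := by
  classical
  unfold e0
  rw [map_mul, map_sub, map_one, map_prod]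
  simp only [phiAlg_eps]
  have hi : π.symm 0 ∈ Finset.univ.erase (0 : Fin (m + 1)) := by
    simp only [Finset.mem_erase, Finset.mem_univ, and_true]
    intro h
    apply hπ
    have h' : π (π.symm 0) = 0 := by simp
    rwa [h] at h'
  have hfac : ∏ x ∈ Finset.univ.erase (0 : Fin (m + 1)), eps ℓ (m + 1) k (π x)
      = eps ℓ (m + 1) k 0 * ∏ x ∈ (Finset.univ.erase (0 : Fin (m + 1))).erase (π.symm 0),
          eps ℓ (m + 1) k (π x) := by
    rw [← Finset.mul_prod_erase _ (fun x => eps ℓ (m + 1) k (π x)) hi]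
    simp
  rw [hfac]
  have h1 : (1 - eps ℓ (m + 1) k 0) * eps ℓ (m + 1) k 0 = 0 := by
    rw [sub_mul, one_mul, eps_mul_self ℓ (m + 1) hℓ, sub_self]
  generalize (∏ x ∈ (Finset.univ.erase (0 : Fin (m + 1))).erase (π.symm 0),
    eps ℓ (m + 1) k (π x)) = Q
  generalize (∏ x ∈ Finset.univ.erase (0 : Fin (m + 1)), eps ℓ (m + 1) k x) = P
  generalize eps ℓ (m + 1) k (π 0) = d
  generalize eps ℓ (m + 1) k 0 = c at h1
  calc (1 - c) * P * ((1 - d) * (c * Q)) = ((1 - c) * c) * (P * (1 - d) * Q) := by ring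
    _ = 0 := by rw [h1, zero_mul]

lemma e0_ne_zero (hℓ : (ℓ : k) ≠ 0) (h1 : 1 < ℓ) (m : ℕ) : e0 ℓ k m ≠ 0 := by
  classical
  intro h0
  have hψ := congrArg (mapDomainRingHom k (coordProj ℓ (m + 1) 0)) h0
  unfold e0 at hψ
  rw [map_mul, map_prod, map_sub, map_one, map_zero] at hψ
  -- the image of `eps i` for `i ≠ 0` is `1`
  have h2 : ∀ i ∈ Finset.univ.erase (0 : Fin (m + 1)),
      mapDomainRingHom k (coordProj ℓ (m + 1) 0) (eps ℓ (m + 1) k i) = 1 := by
    intro i hi
    have hi0 : i ≠ 0 := (Finset.mem_erase.mp hi).1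
    unfold eps avg
    simp only [map_sum, mapDomainRingHom_apply, mapDomain_single]
    have : ∀ x : ZMod ℓ, (coordProj ℓ (m + 1) 0) (coordIncl ℓ (m + 1) i (Multiplicative.ofAdd x)) = 1 := by
      intro x
      apply Multiplicative.toAdd.injective
      show (Pi.single i x : Fin (m + 1) → ZMod ℓ) 0 = 0
      simp [Ne.symm hi0]
    simp only [this, Finset.sum_const, Finset.card_univ, ZMod.card]
    rw [nsmul_eq_mul, natCast_def, single_mul_single, one_mul, one_def]
    simp [mul_inv_cancel₀ hℓ]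
  rw [Finset.prod_eq_one h2, mul_one] at hψ
  have h3 : mapDomainRingHom k (coordProj ℓ (m + 1) 0) (eps ℓ (m + 1) k 0) = avg (k := k) ℓ := by
    unfold eps avg
    simp only [map_sum, mapDomainRingHom_apply, mapDomain_single]
    refine Finset.sum_congr rfl fun x _ => ?_
    congr 1
  rw [h3] at hψ
  -- compare coefficients at the generator
  have : Fact (1 < ℓ) := ⟨h1⟩
  have h4 := congrArg (fun y => y.coeff (Multiplicative.ofAdd (1 : ZMod ℓ))) hψ
  have hne : (1 : Multiplicative (ZMod ℓ)) ≠ Multiplicative.ofAdd (1 : ZMod ℓ) := by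
    intro h
    have : (0 : ZMod ℓ) = 1 := Multiplicative.ofAdd.injective h
    exact zero_ne_one this
  have h5 : (avg (k := k) ℓ).coeff (Multiplicative.ofAdd (1 : ZMod ℓ)) = (ℓ : k)⁻¹ := by
    unfold avg
    rw [coeff_sum, Finset.sum_apply']
    rw [Finset.sum_eq_single (1 : ZMod ℓ)]
    · simp
    · intro b _ hb
      simp [hb]
    · simp
  have h6 : ((1 : MonoidAlgebra k (Multiplicative (ZMod ℓ))) - avg (k := k) ℓ).coeff
      (Multiplicative.ofAdd (1 : ZMod ℓ)) = - (ℓ : k)⁻¹ := by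
    rw [coeff_sub, Finsupp.sub_apply, h5, one_def, coeff_single,
      Finsupp.single_eq_of_ne (Ne.symm hne), zero_sub]
  rw [h6] at h4
  simp only [coeff_zero, Finsupp.coe_zero, Pi.zero_apply] at h4
  exact (inv_ne_zero hℓ) (neg_eq_zero.mp h4)

/-- Inclusion of the group algebra of the base group into that of the wreath product. -/
noncomputable def jA (m : ℕ) : MonoidAlgebra k (VA ℓ (m + 1)) →+* MonoidAlgebra k (Wr ℓ (m + 1)) :=
  mapDomainRingHom k SemidirectProduct.inl

/-- The group element of the wreath product given by a permutation, in the group algebra. -/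
noncomputable def tt (m : ℕ) (π : Equiv.Perm (Fin (m + 1))) : MonoidAlgebra k (Wr ℓ (m + 1)) :=
  single (SemidirectProduct.inr π) 1

lemma tt_mul_tt (m : ℕ) (π σ : Equiv.Perm (Fin (m + 1))) :
    tt (k := k) ℓ m π * tt ℓ m σ = tt ℓ m (π * σ) := by
  unfold tt
  rw [single_mul_single, map_mul, one_mul]

lemma tt_one (m : ℕ) : tt (k := k) ℓ m 1 = 1 := by
  unfold tt
  rw [map_one, one_def]

lemma tt_mul_jA (m : ℕ) (π : Equiv.Perm (Fin (m + 1))) (x : MonoidAlgebra k (VA ℓ (m + 1))) :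
    tt ℓ m π * jA ℓ m x = jA ℓ m (phiAlg ℓ (m + 1) π x) * tt ℓ m π := by
  induction x using MonoidAlgebra.induction_linear with
  | zero => simp
  | add x y hx hy => simp only [map_add, mul_add, add_mul, hx, hy]
  | single a c =>
    unfold jA tt phiAlg
    simp only [mapDomainRingHom_apply, mapDomain_single, single_mul_single, one_mul, mul_one]
    congr 1
    have := SemidirectProduct.inl_aut (φ := phi ℓ (m + 1)) π a
    show SemidirectProduct.inr π * SemidirectProduct.inl a
      = SemidirectProduct.inl (phi ℓ (m + 1) π a) * SemidirectProduct.inr π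
    rw [this, mul_assoc, ← map_mul, inv_mul_cancel, map_one, mul_one]

/-- The swaps used to conjugate. -/
def swp (m : ℕ) (a : Fin (m + 1)) : Equiv.Perm (Fin (m + 1)) := Equiv.swap 0 a

lemma swp_mul_swp_ne (m : ℕ) {a b : Fin (m + 1)} (h : a ≠ b) :
    ((swp m a)⁻¹ * swp m b) 0 ≠ 0 := by
  classical
  unfold swp
  simp only [Equiv.swap_inv, Equiv.Perm.coe_mul, Function.comp_apply, Equiv.swap_apply_left]
  by_cases hb : b = 0
  · subst hb
    simpa [Equiv.swap_apply_left] using h
  · rw [Equiv.swap_apply_of_ne_of_ne (Ne.symm (Ne.symm hb)) (Ne.symm h)]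
    exact hb

/-- Matrix units in the group algebra of the wreath product. -/
noncomputable def EE (m : ℕ) (a b : Fin (m + 1)) : MonoidAlgebra k (Wr ℓ (m + 1)) :=
  tt ℓ m (swp m a) * jA ℓ m (e0 ℓ k m) * tt ℓ m (swp m b)⁻¹

lemma EE_mul (hℓ : (ℓ : k) ≠ 0) (m : ℕ) (a b c d : Fin (m + 1)) :
    EE (k := k) ℓ m a b * EE ℓ m c d = if b = c then EE ℓ m a d else 0 := by
  classical
  unfold EE
  have hmid : tt (k := k) ℓ m (swp m b)⁻¹ * (tt ℓ m (swp m c) * jA ℓ m (e0 ℓ k m))
      = (tt ℓ m ((swp m b)⁻¹ * swp m c)) * jA ℓ m (e0 ℓ k m) := by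
    rw [← mul_assoc, tt_mul_tt]
  calc _ = tt (k := k) ℓ m (swp m a) * (jA ℓ m (e0 ℓ k m) * (tt ℓ m (swp m b)⁻¹ *
        (tt ℓ m (swp m c) * jA ℓ m (e0 ℓ k m)))) * tt ℓ m (swp m d)⁻¹ := by
        simp only [mul_assoc]
    _ = _ := by
      rw [hmid]
      split_ifs with h
      · subst h
        rw [inv_mul_cancel, tt_one, one_mul, ← map_mul, e0_idem ℓ hℓ]
      · rw [tt_mul_jA, ← mul_assoc (jA ℓ m (e0 ℓ k m)), ← map_mul,
          e0_orth ℓ hℓ m _ (swp_mul_swp_ne m h)]
        simp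

lemma tt_mul_inv (m : ℕ) (π : Equiv.Perm (Fin (m + 1))) :
    tt (k := k) ℓ m π * tt ℓ m π⁻¹ = 1 := by
  rw [tt_mul_tt, mul_inv_cancel, tt_one]

lemma tt_inv_mul (m : ℕ) (π : Equiv.Perm (Fin (m + 1))) :
    tt (k := k) ℓ m π⁻¹ * tt ℓ m π = 1 := by
  rw [tt_mul_tt, inv_mul_cancel, tt_one]

lemma jA_e0_ne_zero (hℓ : (ℓ : k) ≠ 0) (h1 : 1 < ℓ) (m : ℕ) : jA ℓ m (e0 ℓ k m) ≠ 0 := by
  intro h
  apply e0_ne_zero ℓ hℓ h1 m
  have hinj : Function.Injective (jA (k := k) ℓ m) := by
    intro x y hxy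
    exact mapDomain_injective (R := k) (f := (SemidirectProduct.inl :
      VA ℓ (m + 1) → Wr ℓ (m + 1))) SemidirectProduct.inl_injective hxy
  exact hinj (by rw [h, map_zero])

lemma EE_ne_zero (hℓ : (ℓ : k) ≠ 0) (h1 : 1 < ℓ) (m : ℕ) (a b : Fin (m + 1)) :
    EE (k := k) ℓ m a b ≠ 0 := by
  intro h
  apply jA_e0_ne_zero ℓ hℓ h1 m
  unfold EE at h
  have h2 : tt (k := k) ℓ m (swp m a)⁻¹ * (tt ℓ m (swp m a) * jA ℓ m (e0 ℓ k m) *
      tt ℓ m (swp m b)⁻¹) * tt ℓ m (swp m b) = jA ℓ m (e0 ℓ k m) := by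
    calc _ = (tt (k := k) ℓ m (swp m a)⁻¹ * tt ℓ m (swp m a)) * jA ℓ m (e0 ℓ k m) *
        (tt ℓ m (swp m b)⁻¹ * tt ℓ m (swp m b)) := by simp only [mul_assoc]
      _ = _ := by rw [tt_inv_mul, tt_inv_mul, one_mul, mul_one]
  rw [← h2, h]
  simp

end Wreath

section Product

variable {k : Type u} [Field k] {G : Type v} [Group G] {H : Type*} [Group H]

/-- Inclusion of `k[G]` in `k[G × H]`. -/
noncomputable def iG : MonoidAlgebra k G →+* MonoidAlgebra k (G × H) :=
  mapDomainRingHom k (MonoidHom.inl G H)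

/-- Inclusion of `k[H]` in `k[G × H]`. -/
noncomputable def iH : MonoidAlgebra k H →+* MonoidAlgebra k (G × H) :=
  mapDomainRingHom k (MonoidHom.inr G H)

lemma iG_mul_iH_single (g : G) (a : k) (h : H) (b : k) :
    iG (H := H) (single g a) * iH (G := G) (single h b) = single (g, h) (a * b) := by
  unfold iG iH
  simp [mapDomainRingHom_apply, mapDomain_single, single_mul_single]

lemma iH_mul_iG_single (g : G) (a : k) (h : H) (b : k) :
    iH (G := G) (single h b) * iG (H := H) (single g a) = single (g, h) (a * b) := by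
  unfold iG iH
  simp [mapDomainRingHom_apply, mapDomain_single, single_mul_single, mul_comm]

lemma iG_comm_iH (x : MonoidAlgebra k G) (y : MonoidAlgebra k H) :
    Commute (iG (H := H) x) (iH (G := G) y) := by
  induction x using MonoidAlgebra.induction_linear with
  | zero => simp
  | add x x' hx hx' => simp only [map_add]; exact hx.add_left hx'
  | single g a =>
    induction y using MonoidAlgebra.induction_linear with
    | zero => simp
    | add y y' hy hy' => simp only [map_add]; exact hy.add_right hy'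
    | single h b =>
      show _ * _ = _ * _
      rw [iG_mul_iH_single, iH_mul_iG_single]

lemma coeff_iG_mul_iH (x : MonoidAlgebra k G) (y : MonoidAlgebra k H) (g : G) (h : H) :
    (iG (H := H) x * iH (G := G) y).coeff (g, h) = x.coeff g * y.coeff h := by
  classical
  induction x using MonoidAlgebra.induction_linear with
  | zero => simp
  | add x x' hx hx' =>
    simp only [map_add, add_mul, coeff_add, Finsupp.add_apply, hx, hx']
  | single g0 a =>
    induction y using MonoidAlgebra.induction_linear with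
    | zero => simp
    | add y y' hy hy' =>
      simp only [map_add, mul_add, coeff_add, Finsupp.add_apply, hy, hy']
    | single h0 b =>
      rw [iG_mul_iH_single]
      simp only [coeff_single, Finsupp.single_apply, Prod.mk.injEq]
      by_cases hg : g0 = g <;> by_cases hh : h0 = h <;> simp [hg, hh]

lemma iG_mul_iH_eq_zero {x : MonoidAlgebra k G} {y : MonoidAlgebra k H}
    (hxy : iG (H := H) x * iH (G := G) y = 0) (hy : y ≠ 0) : x = 0 := by
  classical
  by_contra hx
  have hx' : x.coeff ≠ 0 := fun h => hx (coeff_injective (by rw [h]; rfl))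
  have hy' : y.coeff ≠ 0 := fun h => hy (coeff_injective (by rw [h]; rfl))
  obtain ⟨g, hg⟩ := Finsupp.ne_iff.mp hx'
  obtain ⟨h, hh⟩ := Finsupp.ne_iff.mp hy'
  have := coeff_iG_mul_iH x y g h
  rw [hxy] at this
  simp only [coeff_zero, Finsupp.coe_zero, Pi.zero_apply] at this
  exact mul_ne_zero hg hh this.symm

end Product

/-- If `k[G × (ZMod ℓ ≀ S_{m+1})]` is Dedekind-finite then so is `M_{m+1}(k[G])`. -/
theorem dedekind_matrix_of_wreath {k : Type u} [Field k] {G : Type v} [Group G] (ℓ : ℕ) [NeZero ℓ]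
    (hℓ : (ℓ : k) ≠ 0) (h1 : 1 < ℓ) (m : ℕ)
    [IsDedekindFiniteMonoid (MonoidAlgebra k (G × Wr ℓ (m + 1)))] :
    IsDedekindFiniteMonoid (Matrix (Fin (m + 1)) (Fin (m + 1)) (MonoidAlgebra k G)) := by
  refine dedekind_of_matrixUnits (iG (H := Wr ℓ (m + 1)))
    (fun a b => iH (G := G) (EE (k := k) ℓ m a b)) ?_ ?_ ?_
  · intro r a b
    exact iG_comm_iH _ _
  · intro a b c d
    rw [← map_mul, EE_mul ℓ hℓ]
    split_ifs <;> simp
  · intro r a b h
    exact iG_mul_iH_eq_zero h (EE_ne_zero ℓ hℓ h1 m a b)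

/-- If `k[Γ]` is Dedekind-finite for every group `Γ`, then `k[G]` is stably finite for
every group `G`. -/
theorem stablyFinite_of_dedekind_all {k : Type u} [Field k]
    (h : ∀ (Γ : Type v) [Group Γ], IsDedekindFiniteMonoid (MonoidAlgebra k Γ))
    (G : Type v) [Group G] : IsStablyFiniteRing (MonoidAlgebra k G) := by
  classical
  -- choose `ℓ ∈ {2, 3}` invertible in `k`
  obtain ⟨ℓ, hNZ, hℓ, h1⟩ : ∃ ℓ : ℕ, ∃ _ : NeZero ℓ, ((ℓ : k) ≠ 0) ∧ 1 < ℓ := by
    by_cases h2 : ((2 : ℕ) : k) = 0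
    · refine ⟨3, inferInstance, ?_, by norm_num⟩
      have : ((3 : ℕ) : k) = ((2 : ℕ) : k) + 1 := by push_cast; norm_num
      rw [this, h2, zero_add]
      exact one_ne_zero
    · exact ⟨2, inferInstance, h2, by norm_num⟩
  refine ⟨fun n => ?_⟩
  cases n with
  | zero => exact ⟨fun _ => Subsingleton.elim _ _⟩
  | succ m =>
    have := h (G × Wr ℓ (m + 1))
    exact dedekind_matrix_of_wreath ℓ hℓ h1 m

end Vale.Agent.P194
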